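import Vale.Agent.P076.H819.KerE
import Vale.Agent.P076.H791.Basic

/-! # P076 / H912 : (N1), the trivial `L²` bound on unit cells

`∑_i |u(x_i, t_i)|² ≤ C R ∫|G|²` for points of `ℝ² × [0, R]`, at most one in each unit cube. -/

open MeasureTheory Complex Set
open scoped FourierTransform ENNReal

namespace Vale.Agent.P076.H912

open Vale.Agent.P076 Vale.Agent.P076.H791 Vale.Agent.P076.H819

/-- the one dimensional weight at the integers -/
noncomputable def zw (m : ℤ) : ℝ≥0∞ := ENNReal.ofReal ((1 + |(m : ℝ)|) ^ (-2 : ℝ))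

theorem tsum_zw : ∑' m : ℤ, zw m ≠ ∞ := by
  have h0 : Summable fun m : ℤ => (1 + |(m : ℝ)|) ^ (-2 : ℝ) := by
    refine Summable.of_nat_of_neg_add_one (f := fun m : ℤ => (1 + |(m : ℝ)|) ^ (-2 : ℝ)) ?_ ?_
    · have h := (Real.summable_nat_rpow_inv (p := 2)).2 (by norm_num)
      have h' := (summable_nat_add_iff (f := fun n : ℕ => ((n : ℝ) ^ (2:ℝ))⁻¹) 1).2 h
      refine h'.congr fun n => ?_
      rw [Real.rpow_neg (by positivity)]
      congr 2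
      rw [Int.cast_natCast, abs_of_nonneg (by positivity)]
      push_cast; ring
    · have h := (Real.summable_nat_rpow_inv (p := 2)).2 (by norm_num)
      have h' := (summable_nat_add_iff (f := fun n : ℕ => ((n : ℝ) ^ (2:ℝ))⁻¹) 2).2 h
      refine h'.congr fun n => ?_
      rw [Real.rpow_neg (by positivity)]
      congr 2
      push_cast
      rw [abs_of_nonpos (by have : (0:ℝ) ≤ n := Nat.cast_nonneg n
                            linarith)]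
      ring
  have h1 : ∑' m : ℤ, zw m = ENNReal.ofReal (∑' m : ℤ, (1 + |(m : ℝ)|) ^ (-2 : ℝ)) := by
    rw [ENNReal.ofReal_tsum_of_nonneg (fun m => by positivity) h0]
    rfl
  rw [h1]
  exact ENNReal.ofReal_ne_top

theorem wE_le (x y : E 2) : ENNReal.ofReal (wE 4 1 (x - y)) ≤
    16 * (zw (⌊x 0⌋ - ⌊y 0⌋) * zw (⌊x 1⌋ - ⌊y 1⌋)) := by
  have key : ∀ k : Fin 2, (1 + ‖x - y‖) ^ (-2 : ℝ) ≤ 4 * (1 + |((⌊x k⌋ - ⌊y k⌋ : ℤ) : ℝ)|) ^ (-2 : ℝ) := by
    intro k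
    have h1 : |x k - y k| ≤ ‖x - y‖ := by
      have := PiLp.norm_apply_le (x - y) k
      simpa [Real.norm_eq_abs] using this
    have h2 : |((⌊x k⌋ - ⌊y k⌋ : ℤ) : ℝ)| ≤ |x k - y k| + 1 := by
      have a1 := Int.floor_le (x k)
      have a2 := Int.lt_floor_add_one (x k)
      have a3 := Int.floor_le (y k)
      have a4 := Int.lt_floor_add_one (y k)
      have a5 := le_abs_self (x k - y k)
      have a6 := neg_abs_le (x k - y k)
      push_cast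
      rw [abs_le]; constructor <;> linarith
    have h3 : (1 + |((⌊x k⌋ - ⌊y k⌋ : ℤ) : ℝ)|) / 2 ≤ 1 + ‖x - y‖ := by
      have := norm_nonneg (x - y)
      linarith
    have h4 := Real.rpow_le_rpow_of_nonpos (z := -2) (by positivity) h3 (by norm_num)
    refine h4.trans (le_of_eq ?_)
    rw [Real.div_rpow (by positivity) (by norm_num)]
    have : (2 : ℝ) ^ (-2 : ℝ) = 1 / 4 := by
      rw [show (-2 : ℝ) = ((-2 : ℤ) : ℝ) by norm_num, Real.rpow_intCast]; norm_num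
    rw [this]; ring
  have h5 : wE 4 1 (x - y) = (1 + ‖x - y‖) ^ (-2 : ℝ) * (1 + ‖x - y‖) ^ (-2 : ℝ) := by
    unfold wE
    rw [div_one, ← Real.rpow_add (by positivity)]; norm_num
  rw [h5]
  have h6 : (1 + ‖x - y‖) ^ (-2 : ℝ) * (1 + ‖x - y‖) ^ (-2 : ℝ) ≤
      16 * ((1 + |((⌊x 0⌋ - ⌊y 0⌋ : ℤ) : ℝ)|) ^ (-2 : ℝ) * (1 + |((⌊x 1⌋ - ⌊y 1⌋ : ℤ) : ℝ)|) ^ (-2 : ℝ)) := by
    have := mul_le_mul (key 0) (key 1) (by positivity) (by positivity)
    refine this.trans (le_of_eq ?_)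
    ring
  refine (ENNReal.ofReal_le_ofReal h6).trans (le_of_eq ?_)
  unfold zw
  rw [ENNReal.ofReal_mul (by norm_num), ENNReal.ofReal_mul (by positivity)]
  simp

theorem sum_wE_le {ι : Type*} (A : Finset ι) (x : ι → E 2)
    (hc : ∀ i ∈ A, ∀ j ∈ A, (∀ k, ⌊x i k⌋ = ⌊x j k⌋) → i = j) (y : E 2) :
    ∑ i ∈ A, ENNReal.ofReal (wE 4 1 (x i - y)) ≤ 16 * (∑' m : ℤ, zw m) ^ 2 := by
  classical
  have h1 : ∑ i ∈ A, ENNReal.ofReal (wE 4 1 (x i - y)) ≤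
      ∑ i ∈ A, 16 * (zw (⌊x i 0⌋ - ⌊y 0⌋) * zw (⌊x i 1⌋ - ⌊y 1⌋)) :=
    Finset.sum_le_sum fun i _ => wE_le _ _
  have h2 : ∑ i ∈ A, 16 * (zw (⌊x i 0⌋ - ⌊y 0⌋) * zw (⌊x i 1⌋ - ⌊y 1⌋)) =
      ∑ q ∈ A.image (fun i => ((⌊x i 0⌋, ⌊x i 1⌋) : ℤ × ℤ)), 16 * (zw (q.1 - ⌊y 0⌋) * zw (q.2 - ⌊y 1⌋)) := by
    rw [Finset.sum_image]
    intro i hi j hj hij
    simp only [Prod.mk.injEq] at hij
    refine hc i hi j hj fun k => ?_
    fin_cases k
    · exact hij.1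
    · exact hij.2
  rw [h2] at h1
  refine h1.trans ((ENNReal.sum_le_tsum _).trans (le_of_eq ?_))
  rw [ENNReal.tsum_mul_left, ENNReal.tsum_prod (f := fun a b => zw (a - ⌊y 0⌋) * zw (b - ⌊y 1⌋))]
  congr 1
  have h3 : ∀ p : ℤ, ∑' m : ℤ, zw (m - p) = ∑' m : ℤ, zw m := fun p =>
    (Equiv.subRight p).tsum_eq (fun m => zw m)
  calc ∑' (a : ℤ) (b : ℤ), zw (a - ⌊y 0⌋) * zw (b - ⌊y 1⌋) = ∑' a : ℤ, zw (a - ⌊y 0⌋) * ∑' b : ℤ, zw (b - ⌊y 1⌋) := by
        congr 1; ext a; rw [ENNReal.tsum_mul_left]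
    _ = (∑' m : ℤ, zw m) ^ 2 := by rw [ENNReal.tsum_mul_right, h3, h3, sq]

/-- Plancherel at any time -/
theorem lint_evo {G : E 2 → ℂ} (hm : Measurable G) (hb : ∃ b : ℝ, ∀ η, ‖G η‖ ≤ b) {r : ℝ}
    (hs : ∀ η, G η ≠ 0 → ‖η‖ ≤ r) (s : ℝ) : ∫⁻ x, ‖evo G x s 0‖ₑ ^ 2 = ∫⁻ η, ‖G η‖ₑ ^ 2 := by
  have hm' : Measurable (sft s G) := by
    unfold H791.sft
    fun_prop
  have hb' : ∃ b : ℝ, ∀ η, ‖sft s G η‖ ≤ b := by
    obtain ⟨b, hb⟩ := hb
    exact ⟨b, fun η => by rw [norm_sft]; exact hb η⟩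
  have hs' : ∀ η, sft s G η ≠ 0 → ‖η‖ ≤ r := by
    intro η h
    refine hs η fun h0 => h ?_
    simp [sft, h0]
  have h1 := lintegral_evo_zero (integrable_of_bdd hm' hb' hs') (memLp_of_bdd hm' hb' hs' 2)
  simp_rw [evo_sft, zero_add] at h1
  rw [h1]
  refine lintegral_congr fun η => ?_
  rw [← ofReal_norm, ← ofReal_norm, norm_sft]

/-- **(N1)** the trivial bound -/
theorem triv (B : ℝ) : ∃ C : ℝ, 0 ≤ C ∧ ∀ (R : ℝ) (G : E 2 → ℂ) (A : Finset ℕ) (x : ℕ → E 2) (t : ℕ → ℝ), 1 ≤ R →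
    Measurable G → (∃ b : ℝ, ∀ η, ‖G η‖ ≤ b) → (∀ η, G η ≠ 0 → ∀ k, |η k| ≤ B) →
    (∀ i ∈ A, 0 ≤ t i) → (∀ i ∈ A, t i ≤ R) →
    (∀ i ∈ A, ∀ j ∈ A, (∀ k, ⌊x i k⌋ = ⌊x j k⌋) → ⌊t i⌋ = ⌊t j⌋ → i = j) →
      ∑ i ∈ A, ‖evo G (x i) (t i) 0‖ ^ 2 ≤ C * R * ∫ η, ‖G η‖ ^ 2 := by
  obtain ⟨C0, hC0, K⟩ := kernel_evo 4 B 1 (by norm_num)
  set T : ℝ≥0∞ := ∑' m : ℤ, zw m with hT
  have hTt : T ≠ ∞ := tsum_zw
  refine ⟨2 * C0 * (16 * T ^ 2).toReal, by positivity, fun R G A x t hR hm hb hs ht0 htR hc => ?_⟩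
  have hs2 : ∀ η, G η ≠ 0 → ‖η‖ ≤ 2 * B := by
    intro η h
    have h0 := hs η h 0
    have h1 := hs η h 1
    have hB : 0 ≤ B := (abs_nonneg _).trans h0
    rw [EuclideanSpace.norm_eq, Fin.sum_univ_two]
    rw [Real.sqrt_le_left (by positivity)]
    simp only [Real.norm_eq_abs]
    have := mul_self_le_mul_self (abs_nonneg _) h0
    have := mul_self_le_mul_self (abs_nonneg _) h1
    nlinarith
  have hG : Integrable G := integrable_of_bdd hm hb hs2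
  have hsq : Integrable fun η => ‖G η‖ ^ 2 := by
    have := (memLp_of_bdd hm hb hs2 2).integrable_norm_pow (by norm_num)
    simpa using this
  have hsq' : ∫⁻ η, ‖G η‖ₑ ^ 2 = ENNReal.ofReal (∫ η, ‖G η‖ ^ 2) := by
    rw [ofReal_integral_eq_lintegral_ofReal hsq (by filter_upwards with η; positivity)]
    refine lintegral_congr fun η => ?_
    rw [← ofReal_norm, ENNReal.ofReal_pow (norm_nonneg _)]
  -- one time class
  have one : ∀ m : ℕ, ∑ i ∈ A.filter (fun i => ⌊t i⌋ = (m : ℤ)), ‖evo G (x i) (t i) 0‖ₑ ^ 2 ≤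
      ENNReal.ofReal C0 * (16 * T ^ 2) * ENNReal.ofReal (∫ η, ‖G η‖ ^ 2) := by
    intro m
    have h1 : ∀ i ∈ A.filter (fun i => ⌊t i⌋ = (m : ℤ)), ‖evo G (x i) (t i) 0‖ₑ ^ 2 ≤
        ENNReal.ofReal C0 * ∫⁻ y : E 2, ‖evo G y m 0‖ₑ ^ 2 * ENNReal.ofReal (wE 4 1 (x i - y)) := by
      intro i hi
      have hf := (Finset.mem_filter.1 hi).2
      have a1 := Int.floor_le (t i)
      have a2 := Int.lt_floor_add_one (t i)
      rw [hf] at a1 a2
      have h := K 1 0 G one_pos hG (by simpa using hs) (x i) (t i) m (by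
        rw [abs_of_nonneg (by simpa using a1)]
        have : t i < (m : ℝ) + 1 := by exact_mod_cast a2
        linarith)
      simpa using h
    refine (Finset.sum_le_sum h1).trans ?_
    rw [← Finset.mul_sum, ← lintegral_finsetSum, mul_assoc]
    · gcongr
      rw [← hsq', ← lint_evo hm hb hs2 m, ← lintegral_const_mul]
      · refine lintegral_mono fun y => ?_
        rw [← Finset.mul_sum, mul_comm]
        gcongr
        refine sum_wE_le _ x (fun i hi j hj h => ?_) y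
        have hi' := Finset.mem_filter.1 hi
        have hj' := Finset.mem_filter.1 hj
        exact hc i hi'.1 j hj'.1 h (hi'.2.trans hj'.2.symm)
      · exact (continuous_evo_x hG m).measurable.enorm.pow_const 2
    · intro i _
      refine ((continuous_evo_x hG m).measurable.enorm.pow_const 2).mul ?_
      unfold wE
      fun_prop
  have tot : ∑ i ∈ A, ‖evo G (x i) (t i) 0‖ₑ ^ 2 ≤
      ∑ m ∈ Finset.range (⌊R⌋₊ + 1), ∑ i ∈ A.filter (fun i => ⌊t i⌋ = (m : ℤ)), ‖evo G (x i) (t i) 0‖ₑ ^ 2 := by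
    rw [← Finset.sum_fiberwise_of_maps_to (s := A) (t := Finset.range (⌊R⌋₊ + 1)) (g := fun i => ⌊t i⌋₊)]
    · refine Finset.sum_le_sum fun m _ => ?_
      refine Finset.sum_le_sum_of_subset ?_
      intro i hi
      rw [Finset.mem_filter] at hi ⊢
      refine ⟨hi.1, ?_⟩
      rw [← hi.2]
      exact (Int.natCast_floor_eq_floor (ht0 i hi.1)).symm
    · intro i hi
      rw [Finset.mem_range, Nat.lt_add_one_iff]
      exact Nat.floor_le_floor (htR i hi)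
  have fin : ∑ i ∈ A, ‖evo G (x i) (t i) 0‖ₑ ^ 2 ≤
      ENNReal.ofReal (2 * C0 * (16 * T ^ 2).toReal * R * ∫ η, ‖G η‖ ^ 2) := by
    refine tot.trans ((Finset.sum_le_sum fun m _ => one m).trans ?_)
    rw [Finset.sum_const, Finset.card_range, nsmul_eq_mul]
    have hTT : (16 * T ^ 2) ≠ ∞ := by
      refine ENNReal.mul_ne_top (by norm_num) (ENNReal.pow_ne_top hTt)
    rw [← ENNReal.ofReal_toReal hTT, ENNReal.toReal_ofReal ENNReal.toReal_nonneg, ← ENNReal.ofReal_natCast,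
      ← ENNReal.ofReal_mul hC0, ← ENNReal.ofReal_mul (by positivity), ← ENNReal.ofReal_mul (by positivity)]
    apply ENNReal.ofReal_le_ofReal
    have hI : 0 ≤ ∫ η, ‖G η‖ ^ 2 := integral_nonneg fun η => by positivity
    have hf : ((⌊R⌋₊ + 1 : ℕ) : ℝ) ≤ 2 * R := by
      have := Nat.floor_le (by linarith : 0 ≤ R)
      push_cast; linarith
    have hq : 0 ≤ C0 * (16 * T ^ 2).toReal * ∫ η, ‖G η‖ ^ 2 := by positivity
    nlinarith [mul_le_mul_of_nonneg_right hf hq]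
  have hR0 : 0 ≤ 2 * C0 * (16 * T ^ 2).toReal * R * ∫ η, ‖G η‖ ^ 2 := by
    have hI : 0 ≤ ∫ η, ‖G η‖ ^ 2 := integral_nonneg fun η => by positivity
    positivity
  have e : ∑ i ∈ A, ‖evo G (x i) (t i) 0‖ₑ ^ 2 = ENNReal.ofReal (∑ i ∈ A, ‖evo G (x i) (t i) 0‖ ^ 2) := by
    rw [ENNReal.ofReal_sum_of_nonneg (fun i _ => by positivity)]
    refine Finset.sum_congr rfl fun i _ => ?_
    rw [← ofReal_norm, ENNReal.ofReal_pow (norm_nonneg _)]
  rw [e] at fin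
  exact (ENNReal.ofReal_le_ofReal_iff hR0).1 fin

end Vale.Agent.P076.H912
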